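import Vale.Agent.P237.Zonoid.Line

/-! `pA K u = (3/2) ∫_K |∂_u f|` for `f = max 0 (1 - gauge K)`. -/

open MeasureTheory Set Pointwise Filter Topology Metric
open scoped NNReal

namespace Vale.Agent.P237.Zonoid

noncomputable section

/-- The tent over `K`. -/
def tent (K : Set V3) (x : V3) : ℝ := max (1 - gauge K x) 0

variable {K : Set V3}

theorem tent_nonneg (x : V3) : 0 ≤ tent K x := le_max_right _ _

theorem tent_le_one (x : V3) : tent K x ≤ 1 :=
  max_le (by linarith [gauge_nonneg (s := K) x]) zero_le_one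

theorem gauge_le_iff (hK : Body K) {r : ℝ} (hr : 0 < r) (x : V3) :
    gauge K x ≤ r ↔ x ∈ r • K := by
  rw [mem_smul_set_iff_inv_smul_mem₀ hr.ne']
  have hn := mem_interior_iff_mem_nhds.1 hK.2.2
  have h := gauge_le_one_iff_mem_closure (x := r⁻¹ • x) hK.1 hn
  rw [hK.2.1.isClosed.closure_eq, gauge_smul_of_nonneg (inv_nonneg.2 hr.le), smul_eq_mul,
    inv_mul_le_iff₀ hr, mul_one] at h
  exact h

theorem tent_ne_zero_mem (hK : Body K) {x : V3} (hx : tent K x ≠ 0) : x ∈ K := by
  have h : gauge K x ≤ 1 := by
    by_contra h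
    exact hx (max_eq_right (by linarith [not_le.1 h]))
  simpa using (gauge_le_iff hK one_pos x).1 h

theorem le_tent_iff (hK : Body K) {t : ℝ} (h0 : 0 < t) (h1 : t < 1) (x : V3) :
    t ≤ tent K x ↔ x ∈ (1 - t) • K := by
  rw [← gauge_le_iff hK (by linarith) x, tent, le_max_iff]
  exact ⟨fun h => h.elim (fun h => by linarith) (fun h => by linarith), fun h => Or.inl (by linarith)⟩

theorem exists_lipschitz (hK : Body K) : ∃ C : ℝ≥0, LipschitzWith C (tent K) := by
  obtain ⟨C, hC⟩ := hK.1.lipschitz_gauge (mem_interior_iff_mem_nhds.1 hK.2.2)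
  exact ⟨0 + C, ((LipschitzWith.const (1 : ℝ)).sub hC).max_const 0⟩

theorem integrable_tent (hK : Body K) : Integrable (tent K) := by
  obtain ⟨C, hC⟩ := exists_lipschitz hK
  refine hC.continuous.integrable_of_hasCompactSupport
    (HasCompactSupport.intro hK.2.1 fun x hx => ?_)
  by_contra h
  exact hx (tent_ne_zero_mem hK h)

theorem vol_smul (r : ℝ) (hr : 0 ≤ r) (A : Set V3) :
    volume.real (r • A) = r ^ 3 * volume.real A := by
  rw [measureReal_def, Measure.addHaar_smul_of_nonneg volume hr, ENNReal.toReal_mul,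
    ENNReal.toReal_ofReal (by positivity)]
  simp [measureReal_def]

theorem shiftI_smul (K : Set V3) (u : V3) {r : ℝ} (hr : 0 < r) (h : ℝ) :
    shiftI (r • K) u h = r • shiftI K u (h / r) := by
  ext x
  simp only [shiftI, mem_inter_iff, mem_ofPred_eq, mem_smul_set_iff_inv_smul_mem₀ hr.ne', smul_add,
    smul_smul, div_eq_inv_mul]

/-- The translation modulus of the tent. -/
theorem integral_shift (hK : Body K) (u : V3) {h : ℝ} (hh : 0 < h) :
    Integrable (fun x => |tent K (x + h • u) - tent K x|) ∧
    (∫ x, |tent K (x + h • u) - tent K x|) / h =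
      2 * ∫ t in Ioo (0 : ℝ) 1, (1 - t) ^ 2 * (loss K u (h / (1 - t)) / (h / (1 - t))) := by
  set f := tent K with hf
  set g : V3 → ℝ := fun x => f (x + h • u) with hg
  have i1 : Integrable f := integrable_tent hK
  have i2 : Integrable g := i1.comp_add_right (h • u)
  have i3 : Integrable (fun x => min (f x) (g x)) := i1.inf i2
  refine ⟨(i2.sub i1).abs, ?_⟩
  have e1 : ∀ x, |g x - f x| = f x + g x - 2 * min (f x) (g x) := fun x => by
    rcases le_total (f x) (g x) with h | h
    · rw [min_eq_left h, abs_of_nonneg (by linarith)]; ring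
    · rw [min_eq_right h, abs_of_nonpos (by linarith)]; ring
  have e2 : ∫ x, |g x - f x| = 2 * ((∫ x, f x) - ∫ x, min (f x) (g x)) := by
    simp only [e1]
    rw [integral_sub (f := fun x => f x + g x) (i1.add i2) (i3.const_mul 2), integral_add i1 i2,
      integral_const_mul, hg, integral_add_right_eq_self f (h • u)]
    ring
  have lay : ∀ F : V3 → ℝ, Integrable F → (∀ x, 0 ≤ F x) → (∀ x, F x ≤ f x) →
      IntegrableOn (fun t => volume.real {x | t ≤ F x}) (Ioo 0 1) ∧
        ∫ x, F x = ∫ t in Ioo (0 : ℝ) 1, volume.real {x | t ≤ F x} := by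
    intro F hF h0 hle
    have h1 : ∀ x, F x ≤ 1 := fun x => (hle x).trans (tent_le_one x)
    refine ⟨?_, by rw [Integrable.integral_eq_integral_Ioc_meas_le hF (Eventually.of_forall h0)
      (Eventually.of_forall h1), integral_Ioc_eq_integral_Ioo]⟩
    refine Measure.integrableOn_of_bounded (M := volume.real K) measure_Ioo_lt_top.ne ?_ ?_
    · exact (Antitone.measurable (f := fun t => volume {x | t ≤ F x})
        fun _ _ hst => measure_mono fun x hx => le_trans hst hx).ennreal_toReal.aestronglyMeasurable
    · rw [ae_restrict_iff' measurableSet_Ioo]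
      refine Eventually.of_forall fun t ht => ?_
      rw [Real.norm_eq_abs, abs_of_nonneg measureReal_nonneg]
      refine measureReal_mono (fun x hx => tent_ne_zero_mem hK ?_) hK.2.1.measure_lt_top.ne
      have : t ≤ f x := le_trans hx (hle x)
      exact (ht.1.trans_le this).ne'
  obtain ⟨j1, k1⟩ := lay f i1 tent_nonneg fun _ => le_rfl
  obtain ⟨j3, k3⟩ := lay _ i3 (fun x => le_min (tent_nonneg _) (tent_nonneg _))
    (fun x => min_le_left _ _)
  show (∫ x, |g x - f x|) / h = _
  rw [e2, k1, k3, ← integral_sub j1 j3, mul_div_assoc, ← integral_div]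
  congr 1
  refine setIntegral_congr_fun measurableSet_Ioo fun t ht => ?_
  have hr : 0 < 1 - t := by linarith [ht.2]
  have s1 : {x | t ≤ f x} = (1 - t) • K := ext fun x => le_tent_iff hK ht.1 ht.2 x
  have s2 : {x | t ≤ min (f x) (g x)} = (1 - t) • shiftI K u (h / (1 - t)) := by
    rw [← shiftI_smul K u hr]
    ext x
    simp only [mem_ofPred_eq, le_min_iff, shiftI, mem_inter_iff]
    exact and_congr (le_tent_iff hK ht.1 ht.2 x) (le_tent_iff hK ht.1 ht.2 _)
  simp only [s1, s2, vol_smul _ hr.le, loss]
  field_simp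

theorem tendsto_shift (hK : Body K) {u : V3} (hu : u ≠ 0) :
    Tendsto (fun h => (∫ x, |tent K (x + h • u) - tent K x|) / h) (𝓝[>] 0)
      (𝓝 (2 / 3 * pA K u)) := by
  obtain ⟨hle, hlim⟩ := loss_bounds hK hu
  have h0 : ∀ s, 0 ≤ s → 0 ≤ loss K u s := fun s _ => by
    rw [loss, sub_nonneg]
    exact measureReal_mono inter_subset_left hK.2.1.measure_lt_top.ne
  have key : Tendsto
      (fun h => ∫ t in Ioo (0 : ℝ) 1, (1 - t) ^ 2 * (loss K u (h / (1 - t)) / (h / (1 - t))))
      (𝓝[>] 0) (𝓝 (∫ t in Ioo (0 : ℝ) 1, (1 - t) ^ 2 * pA K u)) := by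
    refine tendsto_integral_filter_of_dominated_convergence (fun _ => |pA K u|) ?_ ?_
      (integrable_const _) ?_
    · refine Eventually.of_forall fun h => Measurable.aestronglyMeasurable ?_
      have : Measurable fun s => loss K u s := by
        have hm : MeasurableSet {p : ℝ × V3 | p.2 ∈ K ∧ p.2 + p.1 • u ∈ K} :=
          (hK.2.1.measurableSet.preimage measurable_snd).inter
            (hK.2.1.measurableSet.preimage (by fun_prop))
        exact measurable_const.sub (measurable_measure_prodMk_left hm).ennreal_toReal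
      fun_prop
    · filter_upwards [self_mem_nhdsWithin] with h hh
      rw [ae_restrict_iff' measurableSet_Ioo]
      refine Eventually.of_forall fun t ht => ?_
      have hh : (0 : ℝ) < h := hh
      have hr : 0 < 1 - t := by linarith [ht.2]
      have hs : 0 < h / (1 - t) := by positivity
      have a := hle _ hs.le
      have b : loss K u (h / (1 - t)) / (h / (1 - t)) ≤ pA K u := by
        rw [div_le_iff₀ hs]; linarith
      have c := div_nonneg (h0 _ hs.le) hs.le
      rw [Real.norm_eq_abs, abs_mul, abs_of_nonneg c, abs_of_nonneg (sq_nonneg _)]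
      calc _ ≤ 1 * (loss K u (h / (1 - t)) / (h / (1 - t))) :=
            mul_le_mul_of_nonneg_right (by nlinarith [ht.1]) c
        _ ≤ |pA K u| := by rw [one_mul]; exact b.trans (le_abs_self _)
    · rw [ae_restrict_iff' measurableSet_Ioo]
      refine Eventually.of_forall fun t ht => (hlim.comp ?_).const_mul _
      have hr : 0 < 1 - t := by linarith [ht.2]
      refine tendsto_nhdsWithin_iff.2 ⟨?_, ?_⟩
      · simpa using ((tendsto_id (x := 𝓝 (0 : ℝ))).div_const (1 - t)).mono_left nhdsWithin_le_nhds
      · filter_upwards [self_mem_nhdsWithin] with h hh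
        exact div_pos hh hr
  have hI : ∫ t in Ioo (0 : ℝ) 1, (1 - t) ^ 2 * pA K u = 1 / 3 * pA K u := by
    rw [integral_mul_const, ← integral_Ioc_eq_integral_Ioo,
      ← intervalIntegral.integral_of_le zero_le_one,
      intervalIntegral.integral_comp_sub_left (fun t : ℝ => t ^ 2) 1, integral_pow]
    norm_num
  rw [hI] at key
  have := key.const_mul 2
  rw [show 2 * (1 / 3 * pA K u) = 2 / 3 * pA K u by ring] at this
  refine this.congr' ?_
  filter_upwards [self_mem_nhdsWithin] with h hh
  exact (integral_shift hK u hh).2.symm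

theorem fderiv_tent_eq_zero (hK : Body K) {x : V3} (hx : x ∉ K) : fderiv ℝ (tent K) x = 0 := by
  have : tent K =ᶠ[𝓝 x] fun _ => 0 := by
    filter_upwards [hK.2.1.isClosed.isOpen_compl.mem_nhds hx] with y hy
    by_contra h
    exact hy (tent_ne_zero_mem hK h)
  rw [this.fderiv_eq, fderiv_fun_const]
  rfl

/-- The projection body through the gradient of the tent. -/
theorem pA_eq_integral (hK : Body K) {u : V3} (hu : u ≠ 0) :
    2 / 3 * pA K u = ∫ x in K, |fderiv ℝ (tent K) x u| := by
  obtain ⟨C, hC⟩ := exists_lipschitz hK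
  obtain ⟨R, hR⟩ := hK.2.1.isBounded.exists_norm_le
  set B : Set V3 := closedBall 0 (R + ‖u‖) with hB
  have key : Tendsto (fun h => ∫ x, |tent K (x + h • u) - tent K x| / h) (𝓝[>] 0)
      (𝓝 (∫ x, |fderiv ℝ (tent K) x u|)) := by
    refine tendsto_integral_filter_of_dominated_convergence
      (B.indicator fun _ => (C : ℝ) * ‖u‖) ?_ ?_ ?_ ?_
    · exact Eventually.of_forall fun h => (((hC.continuous.comp (by fun_prop)).sub
        hC.continuous).abs.div_const h).aestronglyMeasurable
    · filter_upwards [self_mem_nhdsWithin, mem_nhdsWithin_of_mem_nhds (Iio_mem_nhds one_pos)]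
        with h hh h1
      have hh : (0 : ℝ) < h := hh
      have h1 : h < 1 := h1
      refine Eventually.of_forall fun x => ?_
      rw [Real.norm_eq_abs, abs_of_nonneg (by positivity), div_le_iff₀ hh]
      by_cases hx : x ∈ B
      · rw [indicator_of_mem hx]
        have := hC.dist_le_mul (x + h • u) x
        rw [Real.dist_eq, dist_eq_norm, add_sub_cancel_left, norm_smul, Real.norm_eq_abs,
          abs_of_pos hh] at this
        linarith
      · rw [indicator_of_notMem hx, zero_mul]
        have hx : R + ‖u‖ < ‖x‖ := not_le.1 fun h => hx (by rw [hB, mem_closedBall_zero_iff]; exact h)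
        have a : tent K x = 0 := by
          by_contra hne
          linarith [hR x (tent_ne_zero_mem hK hne), norm_nonneg u]
        have b : tent K (x + h • u) = 0 := by
          by_contra hne
          have h2 := hR _ (tent_ne_zero_mem hK hne)
          have h3 : ‖x‖ ≤ ‖x + h • u‖ + ‖h • u‖ := norm_le_add_norm_add _ _
          rw [norm_smul, Real.norm_eq_abs, abs_of_pos hh] at h3
          nlinarith [norm_nonneg u]
        simp [a, b]
    · exact (integrable_indicator_iff measurableSet_closedBall).2
        (integrableOn_const measure_closedBall_lt_top.ne)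
    · filter_upwards [hC.ae_differentiableAt (μ := volume)] with x hx
      have h1 := (hx.hasFDerivAt.hasLineDerivAt u).tendsto_slope_zero_right
      refine ((continuous_abs.tendsto _).comp h1).congr' ?_
      filter_upwards [self_mem_nhdsWithin] with h hh
      have hh : (0 : ℝ) < h := hh
      simp [abs_mul, abs_of_pos (inv_pos.2 hh), div_eq_inv_mul]
  have e : ∀ h : ℝ, ∫ x, |tent K (x + h • u) - tent K x| / h =
      (∫ x, |tent K (x + h • u) - tent K x|) / h := fun h => integral_div _ _
  simp only [e] at key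
  rw [tendsto_nhds_unique (tendsto_shift hK hu) key]
  refine (setIntegral_eq_integral_of_forall_compl_eq_zero fun x hx => ?_).symm
  simp [fderiv_tent_eq_zero hK hx]

end

end Vale.Agent.P237.Zonoid
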