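import Vale.Agent.P237.Defs

/-! Lines in a fixed direction: projections, Steiner formula for a segment, translates. -/

open MeasureTheory Set Pointwise Filter Topology

namespace Vale.Agent.P237.Zonoid

noncomputable section

/-- The section of `S` by the line over `y` in the first coordinate direction. -/
def lineSec (S : Set V3) (y : Fin 2 → ℝ) : Set ℝ := {t | (Fin.cons t y : V3) ∈ S}

/-- The projection of `S` along the first coordinate. -/
def shadow (S : Set V3) : Set (Fin 2 → ℝ) := (fun x : V3 => Fin.tail x) '' S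

/-- `L ∩ (L - h u)`. -/
def shiftI (L : Set V3) (u : V3) (h : ℝ) : Set V3 := L ∩ {x | x + h • u ∈ L}

/-- The volume lost under translation. -/
def loss (L : Set V3) (u : V3) (h : ℝ) : ℝ := volume.real L - volume.real (shiftI L u h)

theorem isCompact_seg (u : V3) : IsCompact (seg u) :=
  isCompact_Icc.image (by fun_prop)

theorem isCompact_shiftI {L : Set V3} (hL : IsCompact L) (u : V3) (h : ℝ) :
    IsCompact (shiftI L u h) :=
  hL.inter_right (hL.isClosed.preimage (by fun_prop))

theorem cons_add_smul_e0 (t s : ℝ) (y : Fin 2 → ℝ) :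
    (Fin.cons t y : V3) + s • e0 = Fin.cons (t + s) y := by
  funext i
  refine Fin.cases ?_ (fun j => ?_) i <;> simp [e0, Fin.succ_ne_zero]

theorem continuous_cons' (y : Fin 2 → ℝ) : Continuous fun t : ℝ => (Fin.cons t y : V3) :=
  Continuous.finCons continuous_id continuous_const

theorem isCompact_lineSec {S : Set V3} (hS : IsCompact S) (y : Fin 2 → ℝ) :
    IsCompact (lineSec S y) :=
  (hS.image (continuous_apply 0)).of_isClosed_subset
    (hS.isClosed.preimage (continuous_cons' y)) fun t ht => ⟨_, ht, by simp⟩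

theorem convex_lineSec {S : Set V3} (hS : Convex ℝ S) (y : Fin 2 → ℝ) :
    Convex ℝ (lineSec S y) := by
  intro a ha b hb p q hp hq hpq
  show (Fin.cons _ y : V3) ∈ S
  convert hS ha hb hp hq hpq using 1
  funext i
  refine Fin.cases ?_ (fun j => ?_) i
  · simp
  · simp [← add_mul, hpq]

theorem lineSec_nonempty_iff {S : Set V3} {y : Fin 2 → ℝ} :
    (lineSec S y).Nonempty ↔ y ∈ shadow S := by
  constructor
  · rintro ⟨t, ht⟩
    exact ⟨_, ht, Fin.tail_cons _ _⟩
  · rintro ⟨x, hx, rfl⟩
    exact ⟨x 0, by show Fin.cons (x 0) (Fin.tail x) ∈ S; rwa [Fin.cons_self_tail]⟩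

theorem isCompact_shadow {S : Set V3} (hS : IsCompact S) : IsCompact (shadow S) :=
  hS.image (continuous_pi fun i => continuous_apply _)

theorem convex_shadow {S : Set V3} (hS : Convex ℝ S) : Convex ℝ (shadow S) :=
  hS.linear_image (LinearMap.pi fun i : Fin 2 => LinearMap.proj i.succ)

theorem exists_eq_Icc {S : Set V3} (hS : Convex ℝ S) (hc : IsCompact S) {y : Fin 2 → ℝ}
    (hy : y ∈ shadow S) : ∃ α β, α ≤ β ∧ lineSec S y = Icc α β := by
  have hne := lineSec_nonempty_iff.2 hy
  have h := eq_Icc_of_connected_compact ((convex_lineSec hS y).isConnected hne)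
    (isCompact_lineSec hc y)
  refine ⟨_, _, ?_, h⟩
  rw [h] at hne
  exact nonempty_Icc.1 hne

theorem lineSec_empty {S : Set V3} {y : Fin 2 → ℝ} (hy : y ∉ shadow S) : lineSec S y = ∅ :=
  not_nonempty_iff_eq_empty.1 fun h => hy (lineSec_nonempty_iff.1 h)

/-- Fubini along the first coordinate. -/
theorem volume_real_eq_integral {S : Set V3} (hS : IsCompact S) :
    Integrable (fun y => volume.real (lineSec S y)) ∧
      volume.real S = ∫ y, volume.real (lineSec S y) := by
  set e : V3 ≃ᵐ ℝ × (Fin 2 → ℝ) := MeasurableEquiv.piFinSuccAbove (fun _ => ℝ) 0 with he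
  have hp : MeasurePreserving e.symm (volume : Measure (ℝ × (Fin 2 → ℝ))) volume :=
    (volume_preserving_piFinSuccAbove (fun _ : Fin 3 => ℝ) 0).symm
  have hc : ∀ p : ℝ × (Fin 2 → ℝ), e.symm p = Fin.cons p.1 p.2 := fun p => by
    simp [he, MeasurableEquiv.piFinSuccAbove, Fin.consEquiv]
  have hms : MeasurableSet (e.symm ⁻¹' S) := e.symm.measurable hS.measurableSet
  have hsec : ∀ y, (fun t => (t, y)) ⁻¹' (e.symm ⁻¹' S) = lineSec S y := fun y => by
    ext t; simp only [mem_preimage, hc]; rfl
  have hvol : volume S = ∫⁻ y, volume (lineSec S y) := by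
    rw [← hp.measure_preimage hS.measurableSet.nullMeasurableSet, Measure.volume_eq_prod,
      Measure.prod_apply_symm hms]
    simp only [hsec]
  have hm : Measurable fun y => volume (lineSec S y) := by
    have := measurable_measure_prodMk_right (μ := (volume : Measure ℝ)) hms
    simpa only [hsec] using this
  have hfin : ∫⁻ y, volume (lineSec S y) ≠ ⊤ := hvol ▸ hS.measure_lt_top.ne
  refine ⟨integrable_toReal_of_lintegral_ne_top hm.aemeasurable hfin, ?_⟩
  simp only [measureReal_def]
  rw [integral_toReal hm.aemeasurable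
    (Eventually.of_forall fun y => (isCompact_lineSec hS y).measure_lt_top), hvol]

theorem volume_real_Icc' {a b : ℝ} : volume.real (Icc a b) = max (b - a) 0 := by
  simp [measureReal_def, Real.volume_Icc, ENNReal.toReal_ofReal']

theorem lineSec_add_seg (S : Set V3) (y : Fin 2 → ℝ) :
    lineSec (S + seg e0) y = lineSec S y + Icc (-1) 1 := by
  ext t
  constructor
  · rintro ⟨x, hx, _, ⟨s, hs, rfl⟩, hxs⟩
    simp only at hxs
    have hx' : x = Fin.cons (t - s) y := by
      have : x = (Fin.cons t y : V3) + (-s) • e0 := by rw [← hxs]; simp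
      rw [this, cons_add_smul_e0, ← sub_eq_add_neg]
    exact ⟨t - s, by show Fin.cons (t - s) y ∈ S; rwa [← hx'], s, hs, by simp⟩
  · rintro ⟨a, ha, s, hs, rfl⟩
    exact ⟨_, ha, _, ⟨s, hs, rfl⟩, cons_add_smul_e0 a s y⟩

theorem sec_add_seg {S : Set V3} (hS : Convex ℝ S) (hc : IsCompact S) (y : Fin 2 → ℝ) :
    volume.real (lineSec (S + seg e0) y) =
      volume.real (lineSec S y) + (shadow S).indicator (fun _ => (2 : ℝ)) y := by
  rw [lineSec_add_seg]
  by_cases hy : y ∈ shadow S
  · obtain ⟨α, β, hab, h⟩ := exists_eq_Icc hS hc hy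
    have : Icc α β + Icc (-1 : ℝ) 1 = Icc (α + -1) (β + 1) := by
      apply Subset.antisymm (Set.Icc_add_Icc_subset _ _ _ _)
      intro t ht
      rcases le_total t (α + 1) with h1 | h1
      · exact ⟨α, left_mem_Icc.2 hab, t - α, ⟨by linarith [ht.1], by linarith⟩, by simp⟩
      · rcases le_total t (β + 1) with h2 | h2
        · exact ⟨t - 1, ⟨by linarith, by linarith⟩, 1, ⟨by norm_num, le_rfl⟩, by simp⟩
        · exact ⟨β, right_mem_Icc.2 hab, 1, ⟨by norm_num, le_rfl⟩, by simp; linarith [ht.2]⟩
    rw [h, this, volume_real_Icc', volume_real_Icc', indicator_of_mem hy,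
      max_eq_left (by linarith), max_eq_left (by linarith)]
    ring
  · rw [lineSec_empty hy, indicator_of_notMem hy]
    simp

theorem pA_e0 {S : Set V3} (hS : Convex ℝ S) (hc : IsCompact S) :
    pA S e0 = volume.real (shadow S) := by
  obtain ⟨h1, h2⟩ := volume_real_eq_integral hc
  obtain ⟨-, h4⟩ := volume_real_eq_integral (hc.add (isCompact_seg e0))
  have hm := (isCompact_shadow hc).measurableSet
  have hi : Integrable ((shadow S).indicator fun _ : Fin 2 → ℝ => (2 : ℝ)) :=
    (integrable_indicator_iff hm).2 (integrableOn_const (isCompact_shadow hc).measure_lt_top.ne)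
  rw [pA, h4, h2]
  simp only [sec_add_seg hS hc]
  rw [integral_add h1 hi, integral_indicator_const _ hm, smul_eq_mul]
  ring

theorem sec_loss {S : Set V3} (hS : Convex ℝ S) (hc : IsCompact S) {h : ℝ} (hh : 0 ≤ h)
    (y : Fin 2 → ℝ) :
    volume.real (lineSec S y) - volume.real (lineSec (shiftI S e0 h) y) =
      min (volume.real (lineSec S y)) h := by
  have hsec : lineSec (shiftI S e0 h) y = lineSec S y ∩ {t | t + h ∈ lineSec S y} := by
    ext t
    show (Fin.cons t y : V3) ∈ S ∧ (Fin.cons t y : V3) + h • e0 ∈ S ↔ _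
    rw [cons_add_smul_e0]
    rfl
  by_cases hy : y ∈ shadow S
  · obtain ⟨α, β, hab, he⟩ := exists_eq_Icc hS hc hy
    have : Icc α β ∩ {t | t + h ∈ Icc α β} = Icc α (β - h) := by
      ext t
      simp only [mem_inter_iff, mem_Icc, mem_ofPred_eq]
      constructor
      · rintro ⟨⟨a, b⟩, c, d⟩; constructor <;> linarith
      · rintro ⟨a, b⟩; refine ⟨⟨a, ?_⟩, ?_, ?_⟩ <;> linarith
    rw [hsec, he, this, volume_real_Icc', volume_real_Icc', max_eq_left (by linarith)]
    rcases le_total (β - α) h with h1 | h1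
    · rw [max_eq_right (by linarith), min_eq_left h1]; ring
    · rw [max_eq_left (by linarith), min_eq_right h1]; ring
  · have h1 := lineSec_empty hy
    rw [hsec, h1]
    simp [min_eq_left hh]

theorem loss_e0 {S : Set V3} (hS : Convex ℝ S) (hc : IsCompact S) {h : ℝ} (hh : 0 ≤ h) :
    loss S e0 h = ∫ y, min (volume.real (lineSec S y)) h := by
  obtain ⟨h1, h2⟩ := volume_real_eq_integral hc
  obtain ⟨h3, h4⟩ := volume_real_eq_integral (isCompact_shiftI hc e0 h)
  rw [loss, h2, h4, ← integral_sub h1 h3]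
  simp only [sec_loss hS hc hh]

theorem min_le_indicator (S : Set V3) {h : ℝ} (hh : 0 ≤ h) (y : Fin 2 → ℝ) :
    min (volume.real (lineSec S y)) h ≤ (shadow S).indicator (fun _ => h) y := by
  by_cases hy : y ∈ shadow S
  · rw [indicator_of_mem hy]; exact min_le_right _ _
  · rw [indicator_of_notMem hy, lineSec_empty hy]; simp [min_eq_left hh]

theorem loss_e0_le {S : Set V3} (hS : Convex ℝ S) (hc : IsCompact S) {h : ℝ} (hh : 0 ≤ h) :
    loss S e0 h ≤ h * pA S e0 := by
  have hm := (isCompact_shadow hc).measurableSet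
  have hi : Integrable ((shadow S).indicator fun _ : Fin 2 → ℝ => h) :=
    (integrable_indicator_iff hm).2 (integrableOn_const (isCompact_shadow hc).measure_lt_top.ne)
  rw [loss_e0 hS hc hh, pA_e0 hS hc]
  refine (integral_mono_of_nonneg (Eventually.of_forall fun y => le_min measureReal_nonneg hh) hi
    (Eventually.of_forall (min_le_indicator S hh))).trans_eq ?_
  rw [integral_indicator_const _ hm, smul_eq_mul, mul_comm]

theorem sec_pos {S : Set V3} (hB : Body S) {y : Fin 2 → ℝ} (hy : y ∈ interior (shadow S)) :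
    0 < volume.real (lineSec S y) := by
  obtain ⟨hS, hc, h0⟩ := hB
  have hlim : Tendsto (fun e : ℝ => y + e • y) (𝓝[>] 0) (𝓝 y) := by
    have : Continuous fun e : ℝ => y + e • y := by fun_prop
    simpa using (this.tendsto 0).mono_left nhdsWithin_le_nhds
  obtain ⟨e, he, he0⟩ :=
    ((hlim.eventually (mem_interior_iff_mem_nhds.1 hy)).and self_mem_nhdsWithin).exists
  obtain ⟨x, hx, hxy⟩ := he
  have he0 : (0 : ℝ) < e := he0
  have hd : ∀ᶠ d : ℝ in 𝓝 0, d • e0 ∈ S := by
    have : Continuous fun d : ℝ => d • e0 := by fun_prop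
    exact (this.tendsto 0).eventually (by simpa using mem_interior_iff_mem_nhds.1 h0)
  obtain ⟨d, hdS, hd0⟩ :=
    ((hd.filter_mono nhdsWithin_le_nhds).and
      (self_mem_nhdsWithin (a := (0 : ℝ)) (s := Ioi 0))).exists
  have hd0 : (0 : ℝ) < d := hd0
  have key : ∀ w, w • e0 ∈ S → x 0 / (1 + e) + e / (1 + e) * w ∈ lineSec S y := by
    intro w hw
    have hm := hS hx hw (show (0 : ℝ) ≤ 1 / (1 + e) by positivity)
      (show 0 ≤ e / (1 + e) by positivity) (by field_simp)
    show (Fin.cons _ y : V3) ∈ S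
    convert hm using 1
    funext i
    refine Fin.cases ?_ (fun j => ?_) i
    · simp [e0]; ring
    · have := congrFun hxy j
      simp only [Fin.tail, Pi.add_apply, Pi.smul_apply, smul_eq_mul] at this
      simp [e0, Fin.succ_ne_zero, this]
      field_simp
  have hsub := (convex_lineSec hS y).ordConnected.out (key 0 (by
    simpa using interior_subset h0)) (key d hdS)
  calc (0 : ℝ) < e / (1 + e) * d := by positivity
    _ = volume.real (Icc (x 0 / (1 + e) + e / (1 + e) * 0) (x 0 / (1 + e) + e / (1 + e) * d)) := by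
        rw [volume_real_Icc', max_eq_left (by ring_nf; positivity)]; ring
    _ ≤ _ := measureReal_mono hsub (isCompact_lineSec hc y).measure_lt_top.ne

theorem tendsto_loss_e0 {S : Set V3} (hB : Body S) :
    Tendsto (fun h => loss S e0 h / h) (𝓝[>] 0) (𝓝 (pA S e0)) := by
  obtain ⟨hS, hc, h0⟩ := hB
  have hm := (isCompact_shadow hc).measurableSet
  have hint := (volume_real_eq_integral hc).1
  have key : Tendsto (fun h => ∫ y, min (volume.real (lineSec S y)) h / h) (𝓝[>] 0)
      (𝓝 (∫ y, (shadow S).indicator (fun _ => (1 : ℝ)) y)) := by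
    refine tendsto_integral_filter_of_dominated_convergence
      ((shadow S).indicator fun _ => (1 : ℝ)) ?_ ?_ ?_ ?_
    · exact Eventually.of_forall fun h =>
        ((hint.aestronglyMeasurable.aemeasurable.min aemeasurable_const).div_const h).aestronglyMeasurable
    · filter_upwards [self_mem_nhdsWithin] with h hh
      refine Eventually.of_forall fun y => ?_
      have hh : (0 : ℝ) < h := hh
      rw [Real.norm_eq_abs, abs_of_nonneg (div_nonneg (le_min measureReal_nonneg hh.le) hh.le),
        div_le_iff₀ hh]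
      refine (min_le_indicator S hh.le y).trans_eq ?_
      by_cases hy : y ∈ shadow S <;> simp [hy]
    · exact (integrable_indicator_iff hm).2
        (integrableOn_const (isCompact_shadow hc).measure_lt_top.ne)
    · have hfr : ∀ᵐ y : Fin 2 → ℝ, y ∉ frontier (shadow S) :=
        measure_eq_zero_iff_ae_notMem.1 ((convex_shadow hS).addHaar_frontier volume)
      filter_upwards [hfr] with y hy
      by_cases hys : y ∈ shadow S
      · have hint' : y ∈ interior (shadow S) := by
          by_contra hn
          exact hy ⟨subset_closure hys, hn⟩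
        have hpos := sec_pos ⟨hS, hc, h0⟩ hint'
        refine tendsto_nhds_of_eventually_eq ?_
        filter_upwards [self_mem_nhdsWithin, mem_nhdsWithin_of_mem_nhds (Iio_mem_nhds hpos)]
          with h hh hh'
        have hh : (0 : ℝ) < h := hh
        rw [min_eq_right (le_of_lt hh'), div_self hh.ne', indicator_of_mem hys]
      · rw [indicator_of_notMem hys, lineSec_empty hys]
        refine tendsto_nhds_of_eventually_eq ?_
        filter_upwards [self_mem_nhdsWithin] with h hh
        simp [min_eq_left (le_of_lt (show (0 : ℝ) < h from hh))]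
  rw [integral_indicator_const _ hm, smul_eq_mul, mul_one, ← pA_e0 hS hc] at key
  refine key.congr' ?_
  filter_upwards [self_mem_nhdsWithin] with h hh
  rw [integral_div, loss_e0 hS hc (le_of_lt hh)]

/-! ### Linear changes of variables -/

theorem image_add_seg (T : V3 →ₗ[ℝ] V3) (S : Set V3) (u : V3) :
    T '' (S + seg u) = T '' S + seg (T u) := by
  rw [Set.image_add]
  congr 1
  simp [seg, image_image]

theorem pA_image (T : V3 →ₗ[ℝ] V3) {c : ℝ} {S : Set V3} (hc : IsCompact S) (u : V3)
    (hT : ∀ A : Set V3, IsCompact A → volume.real (T '' A) = c * volume.real A) :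
    pA (T '' S) (T u) = c * pA S u := by
  rw [pA, pA, ← image_add_seg, hT _ (hc.add (isCompact_seg u)), hT _ hc]
  ring

theorem shiftI_image (T : V3 ≃ₗ[ℝ] V3) (S : Set V3) (u : V3) (h : ℝ) :
    T '' shiftI S u h = shiftI (T '' S) (T u) h := by
  ext x
  constructor
  · rintro ⟨z, ⟨hz, hz'⟩, rfl⟩
    exact ⟨mem_image_of_mem _ hz, ⟨z + h • u, hz', by simp⟩⟩
  · rintro ⟨⟨z, hz, rfl⟩, w, hw, hwx⟩
    refine ⟨z, ⟨hz, ?_⟩, rfl⟩
    have : w = z + h • u := T.injective (by simpa using hwx)
    show z + h • u ∈ S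
    exact this ▸ hw

theorem vol_image (T : V3 ≃ₗ[ℝ] V3) (A : Set V3) :
    volume.real (T '' A) = |LinearMap.det (T : V3 →ₗ[ℝ] V3)| * volume.real A := by
  have := Measure.addHaar_image_linearMap (μ := (volume : Measure V3)) (T : V3 →ₗ[ℝ] V3) A
  simp only [LinearEquiv.coe_coe] at this
  simp [measureReal_def, this, ENNReal.toReal_mul, abs_nonneg]

theorem exists_equiv_e0 {u : V3} (hu : u ≠ 0) : ∃ T : V3 ≃ₗ[ℝ] V3, T e0 = u := by
  obtain ⟨i, hi⟩ := Function.ne_iff.1 hu
  set σ := Equiv.swap (0 : Fin 3) i with hσ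
  let f : V3 →ₗ[ℝ] V3 :=
    { toFun := fun x => x 0 • u + fun k => if k = i then 0 else x (σ k)
      map_add' := fun x y => by
        funext k; simp only [Pi.add_apply, Pi.smul_apply, smul_eq_mul]; split_ifs <;> ring
      map_smul' := fun c x => by
        funext k; simp only [Pi.add_apply, Pi.smul_apply, smul_eq_mul, RingHom.id_apply]
        split_ifs <;> ring }
  have hinj : Function.Injective f := by
    rw [← LinearMap.ker_eq_bot, LinearMap.ker_eq_bot']
    intro x hx
    have h0 : x 0 = 0 := by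
      have := congrFun hx i
      have := congrFun hx i
      simpa [f, show u i ≠ 0 from hi] using this
    funext j
    rcases eq_or_ne j 0 with rfl | hj
    · exact h0
    · have hne : σ j ≠ i := fun h => hj (σ.injective (by rw [h, hσ, Equiv.swap_apply_left]))
      have := congrFun hx (σ j)
      simpa [f, h0, hne, show σ (σ j) = j from Equiv.swap_apply_self _ _ _] using this
  refine ⟨LinearEquiv.ofInjectiveEndo f hinj, ?_⟩
  rw [LinearEquiv.coe_ofInjectiveEndo]
  funext k
  by_cases hk : k = i
  · simp [f, e0, hk]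
  · have : σ k ≠ 0 := fun h => hk (σ.injective (by rw [h, hσ, Equiv.swap_apply_right]))
    simp [f, e0, hk, Pi.single_apply, this]

theorem body_image (T : V3 ≃ₗ[ℝ] V3) {S : Set V3} (hS : Body S) : Body (T '' S) := by
  obtain ⟨h1, h2, h3⟩ := hS
  refine ⟨h1.linear_image T.toLinearMap, h2.image T.toContinuousLinearEquiv.continuous, ?_⟩
  have := T.toContinuousLinearEquiv.toHomeomorph.image_interior S
  change (0 : V3) ∈ interior (T.toContinuousLinearEquiv.toHomeomorph '' S)
  rw [← this]
  exact ⟨0, h3, by simp⟩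

theorem loss_bounds {L : Set V3} (hL : Body L) {u : V3} (hu : u ≠ 0) :
    (∀ h, 0 ≤ h → loss L u h ≤ h * pA L u) ∧
      Tendsto (fun h => loss L u h / h) (𝓝[>] 0) (𝓝 (pA L u)) := by
  obtain ⟨T, rfl⟩ := exists_equiv_e0 hu
  obtain ⟨S, hS, rfl⟩ : ∃ S, Body S ∧ L = T '' S :=
    ⟨T.symm '' L, body_image T.symm hL, by rw [image_image]; simp⟩
  have hA : pA (T '' S) (T e0) = |LinearMap.det (T : V3 →ₗ[ℝ] V3)| * pA S e0 :=
    pA_image (T : V3 →ₗ[ℝ] V3) hS.2.1 e0 fun A _ => vol_image T A
  have hloss : ∀ h, loss (T '' S) (T e0) h = |LinearMap.det (T : V3 →ₗ[ℝ] V3)| * loss S e0 h := by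
    intro h
    rw [loss, loss, ← shiftI_image, vol_image, vol_image]
    ring
  refine ⟨fun h hh => ?_, ?_⟩
  · rw [hloss, hA, mul_left_comm]
    exact mul_le_mul_of_nonneg_left (loss_e0_le hS.1 hS.2.1 hh) (abs_nonneg _)
  · simp only [hloss, hA, mul_div_assoc]
    exact (tendsto_loss_e0 hS).const_mul _

end

end Vale.Agent.P237.Zonoid
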